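import Vale.Agent.H30.NS.Defs

/-!
Stable detection: a variant of `Detects` in which the trajectories of the non-halting case stay
at a definite distance from the target set.
-/

namespace Vale.Agent.H30

/-- The forced system with viscosity `ν` and force `f` has a global smooth solution, which is
unique among classical solutions on every `[0, T]`; the fluid particle starting at the torus point
`a` has a trajectory; if `h` holds then every such trajectory lies in the set `O` at some time
`t ≥ 0`, and if `h` fails then every such trajectory stays at distance at least `δ` from every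
point of `O` at all times `t ≥ 0`. Trajectories are written as lifts `X : ℝ → R3` of curves on the
torus; the distance on the torus `(ℝ/ℤ)^3` is the maximum over the three coordinates of the
distance on the circle `ℝ/ℤ`. -/
def DetectsStably (ν : ℝ) (f : ℝ → R3 → R3) (a : Fin 3 → UnitAddCircle)
    (O : Set (Fin 3 → UnitAddCircle)) (δ : ℝ) (h : Prop) : Prop :=
  ∃ (u : ℝ → R3 → R3) (p : ℝ → R3 → ℝ),
    (∀ n : ℕ, ContDiff ℝ n (fun z : ℝ × R3 => u z.1 z.2)) ∧
    (∀ n : ℕ, ContDiff ℝ n (fun z : ℝ × R3 => p z.1 z.2)) ∧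
    (∀ T : ℝ, 0 < T → IsClassical ν f T u p ∧
      ∀ v q, IsClassical ν f T v q →
        ∀ t ∈ Set.Icc (0 : ℝ) T, ∀ x : R3, v t x = u t x ∧ q t x = p t x) ∧
    (∃ X : ℝ → R3, (fun i => ((X 0 i : ℝ) : UnitAddCircle)) = a ∧
      ∀ t : ℝ, 0 ≤ t → HasDerivWithinAt X (u t (X t)) (Set.Ici 0) t) ∧
    ∀ X : ℝ → R3, (fun i => ((X 0 i : ℝ) : UnitAddCircle)) = a →
      (∀ t : ℝ, 0 ≤ t → HasDerivWithinAt X (u t (X t)) (Set.Ici 0) t) →
      (h → ∃ t : ℝ, 0 ≤ t ∧ (fun i => ((X t i : ℝ) : UnitAddCircle)) ∈ O) ∧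
      (¬ h → ∀ t : ℝ, 0 ≤ t → ∀ y ∈ O,
        δ ≤ dist (fun i => ((X t i : ℝ) : UnitAddCircle)) y)

/-- Stable detection implies detection, for a positive margin. -/
theorem DetectsStably.detects {ν : ℝ} {f : ℝ → R3 → R3} {a : Fin 3 → UnitAddCircle}
    {O : Set (Fin 3 → UnitAddCircle)} {δ : ℝ} {h : Prop} (hδ : 0 < δ)
    (H : DetectsStably ν f a O δ h) : Detects ν f a O h := by
  obtain ⟨u, p, h1, h2, h3, h4, h5⟩ := H
  refine ⟨u, p, h1, h2, h3, h4, ?_⟩
  intro X hX0 hX
  obtain ⟨ha, hb⟩ := h5 X hX0 hX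
  constructor
  · rintro ⟨t, ht, hmem⟩
    by_contra hn
    have := hb hn t ht _ hmem
    rw [dist_self] at this
    linarith
  · exact ha

end Vale.Agent.H30
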