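import Vale.Agent.H30.NS2.Pulse

/-!
Third construction for P113 (stable detection): the lookup pulses push the particle in one
direction only. This file: the primitive `thQ` of the pulse train `thP` of the second
construction. Its derivative is the nonnegative pulse train, it vanishes for `t ≤ 1`, and it
grows by a fixed positive amount over every period after time `1`.
-/

namespace Vale.Agent.H30.V3

open Vale.Agent.H30

/-- The primitive of the switched pulse train. -/
noncomputable def thQ (t : ℝ) : ℝ := ∫ s in (0 : ℝ)..t, V2.thP s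

theorem thP_continuous : Continuous V2.thP := (V2.thP_smooth 0).continuous

theorem thQ_hasDerivAt (t : ℝ) : HasDerivAt thQ (V2.thP t) t :=
  (thP_continuous.integral_hasStrictDerivAt 0 t).hasDerivAt

theorem deriv_thQ : deriv thQ = V2.thP := funext fun t => (thQ_hasDerivAt t).deriv

theorem thQ_smooth (n : ℕ) : ContDiff ℝ n thQ := by
  have h : ContDiff ℝ ((n : ℕ∞) + 1 : ℕ∞) thQ := by
    have := (contDiff_succ_iff_deriv (𝕜 := ℝ) (f := thQ) (n := (n : WithTop ℕ∞))).2
      ⟨fun t => (thQ_hasDerivAt t).differentiableAt, by simp, by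
        rw [deriv_thQ]; exact V2.thP_smooth n⟩
    exact_mod_cast this
  exact h.of_le (by exact_mod_cast le_self_add)

theorem iteratedDeriv_succ_thQ (j : ℕ) : iteratedDeriv (j + 1) thQ = iteratedDeriv j V2.thP := by
  rw [iteratedDeriv_succ', deriv_thQ]

theorem thQ_of_le_one {t : ℝ} (ht : t ≤ 1) : thQ t = 0 := by
  unfold thQ
  have h : ∀ s ∈ Set.uIcc (0 : ℝ) t, V2.thP s = 0 := by
    intro s hs
    have hs1 : s ≤ 1 := by
      rcases Set.mem_uIcc.1 hs with h | h
      · linarith [h.2]
      · linarith [h.2]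
    exact V2.thP_of_le_one hs1
  rw [intervalIntegral.integral_congr (g := fun _ => (0 : ℝ)) h]
  simp

theorem iteratedDeriv_thQ_of_le_one (j : ℕ) {t : ℝ} (ht : t ≤ 1) : iteratedDeriv j thQ t = 0 := by
  cases j with
  | zero => simpa using thQ_of_le_one ht
  | succ j => rw [iteratedDeriv_succ_thQ]; exact V2.iteratedDeriv_thP_of_le_one j ht

theorem deriv_thQ_of_le_one {t : ℝ} (ht : t ≤ 1) : deriv thQ t = 0 := by
  rw [deriv_thQ]; exact V2.thP_of_le_one ht

/-- For `t ≥ 1` all derivatives of positive order of the primitive are `1`-periodic. -/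
theorem iteratedDeriv_thQ_add_one (j : ℕ) {t : ℝ} (ht : 1 ≤ t) :
    iteratedDeriv (j + 1) thQ (t + 1) = iteratedDeriv (j + 1) thQ t := by
  rw [iteratedDeriv_succ_thQ]; exact V2.iteratedDeriv_thP_add_one j ht

theorem thper_nonneg (x : ℝ) : 0 ≤ V2.thper x := by
  have h := V2.thper_iteratedDeriv 0 x
  simp only [iteratedDeriv_zero, pow_zero, mul_one] at h
  rw [h]
  split_ifs
  · refine mul_nonneg ?_ (Wfun_nonneg _ _ _)
    unfold V2.d0
    split_ifs <;> norm_num
  · exact le_rfl

theorem thP_nonneg (t : ℝ) : 0 ≤ V2.thP t := by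
  unfold V2.thP
  split_ifs
  · exact le_rfl
  · exact thper_nonneg t

theorem thQ_monotone : Monotone thQ :=
  monotone_of_deriv_nonneg ((thQ_smooth 1).differentiable (by norm_num)) (fun t => by
    rw [deriv_thQ]; exact thP_nonneg t)

theorem thQ_zero : thQ 0 = 0 := thQ_of_le_one zero_le_one

theorem thQ_nonneg (t : ℝ) (ht : 0 ≤ t) : 0 ≤ thQ t := by
  have := thQ_monotone ht
  rwa [thQ_zero] at this

/-- The gain of the primitive over one period. -/
theorem thQ_two_pos : 0 < thQ 2 := by
  have h0 : 0 ≤ thQ 2 := thQ_nonneg 2 (by norm_num)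
  rcases eq_or_lt_of_le h0 with h | h
  · exfalso
    have hz : ∀ s ∈ Set.Ioo (1 : ℝ) 2, thQ s = 0 := by
      intro s hs
      have h1 : thQ s ≤ thQ 2 := thQ_monotone hs.2.le
      have h2 : 0 ≤ thQ s := thQ_nonneg s (by linarith [hs.1])
      linarith
    have hev : thQ =ᶠ[nhds (17 / 12 : ℝ)] fun _ => (0 : ℝ) := by
      filter_upwards [Ioo_mem_nhds (by norm_num : (1 : ℝ) < 17 / 12)
        (by norm_num : (17 / 12 : ℝ) < 2)] with s hs
      exact hz s hs
    have hd : deriv thQ (17 / 12) = 0 := by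
      rw [hev.deriv_eq]; simp
    rw [deriv_thQ, V2.thP_mid] at hd
    have : 0 < Real.exp (-1) * Real.exp (-1) := by positivity
    linarith
  · exact h

theorem thQ_add_one {t : ℝ} (ht : 1 ≤ t) : thQ (t + 1) = thQ t + thQ 2 := by
  have hψ : ∀ s : ℝ, 0 ≤ s →
      HasDerivWithinAt (fun s => thQ (s + 2) - thQ (s + 1)) 0 (Set.Ici 0) s := by
    intro s hs
    have a1 : HasDerivAt (fun s => thQ (s + 2)) (V2.thP (s + 2)) s := by
      simpa using (thQ_hasDerivAt (s + 2)).comp_add_const s 2
    have a2 : HasDerivAt (fun s => thQ (s + 1)) (V2.thP (s + 1)) s := by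
      simpa using (thQ_hasDerivAt (s + 1)).comp_add_const s 1
    have e : V2.thP (s + 2) - V2.thP (s + 1) = 0 := by
      have := V2.iteratedDeriv_thP_add_one 0 (t := s + 1) (by linarith)
      simp only [iteratedDeriv_zero] at this
      have e2 : s + 2 = s + 1 + 1 := by ring
      rw [e2, this, sub_self]
    have a3 := (a1.sub a2).hasDerivWithinAt (s := Set.Ici (0 : ℝ))
    rw [e] at a3
    exact a3
  have := const_of_deriv_zero_Ici hψ (t - 1) (by linarith)
  have e1 : t - 1 + 2 = t + 1 := by ring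
  have e2 : t - 1 + 1 = t := by ring
  rw [e1, e2, zero_add, zero_add, thQ_of_le_one le_rfl, sub_zero] at this
  linarith

theorem thQ_nat (k : ℕ) : thQ (1 + k) = k * thQ 2 := by
  induction k with
  | zero => simp [thQ_of_le_one]
  | succ k ih =>
    have e : (1 : ℝ) + ((k + 1 : ℕ) : ℝ) = (1 + (k : ℝ)) + 1 := by push_cast; ring
    rw [e, thQ_add_one (by linarith [Nat.cast_nonneg (α := ℝ) k]), ih]
    push_cast
    ring

/-- The primitive takes every nonnegative value at some time `t ≥ 0`. -/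
theorem thQ_surj {y : ℝ} (hy : 0 ≤ y) : ∃ t : ℝ, 0 ≤ t ∧ thQ t = y := by
  obtain ⟨k, hk⟩ := exists_nat_ge (y / thQ 2)
  have hk' : y ≤ k * thQ 2 := by
    rw [div_le_iff₀ thQ_two_pos] at hk
    exact hk
  have hab : (0 : ℝ) ≤ 1 + k := by positivity
  have hc : ContinuousOn thQ (Set.Icc 0 (1 + (k : ℝ))) := (thQ_smooth 0).continuous.continuousOn
  have hmem : y ∈ Set.Icc (thQ 0) (thQ (1 + k)) := by
    rw [thQ_zero, thQ_nat]
    exact ⟨hy, hk'⟩
  obtain ⟨t, ht, hty⟩ := intermediate_value_Icc hab hc hmem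
  exact ⟨t, ht.1, hty⟩

end Vale.Agent.H30.V3
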