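import Vale.Agent.H30.NS3.Force
import Vale.Agent.H30.NS2.Main

/-!
Final assembly of the third construction for P113: stable halting detection. The force is
machine-independent up to time `T₀` and input-independent and time-periodic from time `T₀` on;
in the halting case the trajectory enters the open set, in the non-halting case it stays at
distance at least `δ` from it.
-/

namespace Vale.Agent.H30.V3

open Encodable
open Vale.Agent.H77 (classical_unique)

theorem main_theorem :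
    ∃ (a : Fin 3 → UnitAddCircle) (O : Set (Fin 3 → UnitAddCircle)) (T₀ P δ : ℝ),
      IsOpen O ∧ 0 < T₀ ∧ 0 < P ∧ 0 < δ ∧
      ∀ ν : ℝ, 0 < ν →
        (∃ φ : ℕ → ℕ × ℕ × ℕ, Computable φ ∧ ∀ k : ℕ, |ν - qv (φ k)| ≤ 1 / ((k : ℝ) + 1)) →
        ∃ (comp : (ℕ × List ℕ × List ((ℕ × ℕ) × ℕ × ℕ × Option Bool)) → List ℕ →
            Nat.Partrec.Code)
          (F : (ℕ × List ℕ × List ((ℕ × ℕ) × ℕ × ℕ × Option Bool)) → List ℕ → ℝ → R3 → R3),
          Computable₂ comp ∧
          (∀ M w w' t x, T₀ ≤ t → F M w (t + P) x = F M w t x ∧ F M w' t x = F M w t x) ∧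
          (∀ M M' w t x, t ≤ T₀ → F M' w t x = F M w t x) ∧
          ∀ M w, (∀ n : ℕ, ContDiff ℝ n (fun z : ℝ × R3 => F M w z.1 z.2)) ∧
            (∀ t : ℝ, Per3 (F M w t)) ∧ IsProgramFor (comp M w) (F M w) ∧
            Detects ν (F M w) a O (∃ n : ℕ, ((tmStep M)^[n] (M.1, [], w)).1 ∈ M.2.1) ∧
            DetectsStably ν (F M w) a O δ
              (∃ n : ℕ, ((tmStep M)^[n] (M.1, [], w)).1 ∈ M.2.1) := by
  refine ⟨0, Oset, 1, 1, 1 / 4, Oset_open, one_pos, one_pos, by norm_num, ?_⟩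
  intro ν hν hcomp
  obtain ⟨A, hA, hAe⟩ := force_creal ν hcomp
  -- the uniform program
  let G : (MachineT × List ℕ) × (ℕ × (ℕ × ℕ × ℕ) × Fin 3 × (ℕ × ℕ × ℕ)
      × ((ℕ × ℕ × ℕ) × (ℕ × ℕ × ℕ) × (ℕ × ℕ × ℕ)) × ℕ) → ℕ × ℕ × ℕ :=
    fun p => A (p.1, p.2.1, p.2.2.1, p.2.2.2.1, p.2.2.2.2.1, p.2.2.2.2.2.1) p.2.2.2.2.2.2
  have hG : Computable G := by
    have h1 : Computable (fun p : (MachineT × List ℕ) × (ℕ × (ℕ × ℕ × ℕ) × Fin 3 × (ℕ × ℕ × ℕ)
        × ((ℕ × ℕ × ℕ) × (ℕ × ℕ × ℕ) × (ℕ × ℕ × ℕ)) × ℕ) =>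
        (p.1, p.2.1, p.2.2.1, p.2.2.2.1, p.2.2.2.2.1, p.2.2.2.2.2.1)) := by
      refine Computable.pair Computable.fst (Computable.pair ?_ (Computable.pair ?_
        (Computable.pair ?_ (Computable.pair ?_ ?_))))
      · exact Computable.fst.comp Computable.snd
      · exact Computable.fst.comp (Computable.snd.comp Computable.snd)
      · exact Computable.fst.comp (Computable.snd.comp (Computable.snd.comp Computable.snd))
      · exact Computable.fst.comp (Computable.snd.comp (Computable.snd.comp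
          (Computable.snd.comp Computable.snd)))
      · exact Computable.fst.comp (Computable.snd.comp (Computable.snd.comp
          (Computable.snd.comp (Computable.snd.comp Computable.snd))))
    have h2 : Computable (fun p : (MachineT × List ℕ) × (ℕ × (ℕ × ℕ × ℕ) × Fin 3 × (ℕ × ℕ × ℕ)
        × ((ℕ × ℕ × ℕ) × (ℕ × ℕ × ℕ) × (ℕ × ℕ × ℕ)) × ℕ) => p.2.2.2.2.2.2) :=
      Computable.snd.comp (Computable.snd.comp (Computable.snd.comp
          (Computable.snd.comp (Computable.snd.comp Computable.snd))))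
    exact hA.comp h1 h2
  obtain ⟨c₀, hc₀⟩ := code_of_computable G hG
  refine ⟨fun M w => Nat.Partrec.Code.curry c₀ (encode (M, w)),
    fun M w => fMw ν M w, ?_, ?_, ?_, ?_⟩
  · have : Computable (fun p : (ℕ × List ℕ × List ((ℕ × ℕ) × ℕ × ℕ × Option Bool)) × List ℕ =>
        Nat.Partrec.Code.curry c₀ (encode p)) :=
      (Nat.Partrec.Code.primrec₂_curry.to_comp).comp (Computable.const c₀) Computable.encode
    exact this
  · intro M w w' t x ht
    exact ⟨fG_add_one ν _ ht x, fG_indep_c ν _ _ ht x⟩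
  · intro M M' w t x ht
    exact fG_indep_g ν _ _ ht x
  · intro M w
    refine ⟨fG_smooth ν _ (V2.gM_smooth M), fG_periodic ν _ (V2.gM_periodic M), ?_, ?_⟩
    · intro a b i t x k _
      refine ⟨G ((M, w), a, b, i, t, x, k), ?_, ?_⟩
      · rw [Nat.Partrec.Code.eval_curry]
        have := hc₀ ((M, w), a, b, i, t, x, k)
        simpa using this
      · exact hAe ((M, w), a, b, i, t, x) k
    · have hg0 : 0 ≤ V2.gM M ((cq (encode w) : ℚ) : ℝ) := by
        rw [V2.gM_cq]
        exact mul_nonneg (V2.etaM_nonneg _ _) (by positivity)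
      have hd := detects_generic ν ((cq (encode w) : ℚ) : ℝ) (V2.gM_smooth M) (V2.gM_periodic M)
        hg0 (fun T hT v q hvq =>
          classical_unique hν hT (uG_isClassical ν _ (V2.gM_smooth M) (V2.gM_periodic M) hT) hvq)
      have hiff := propext (V2.halting_iff M w)
      rw [← hiff]
      exact ⟨hd.detects (by norm_num), hd⟩

end Vale.Agent.H30.V3
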